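import Vale.Agent.P176.Statement
import Vale.Agent.P176.H231.All
import Vale.Agent.P176.H807.Defs
import Vale.Agent.P176.H807.Quant

/-!
# P176: the finitistic dimension conjecture is false over every field that is not an algebraic
extension of a finite field

1. Over every field `K` that is not algebraic over a finite subfield (of any characteristic) there
   is a finite-dimensional `K`-algebra, isomorphic to its opposite, whose left and right little
   finitistic dimensions are both infinite.
2. Every field of characteristic zero is such a field, and such fields exist in every prime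
   characteristic.
3. In characteristic zero there are explicit connected basic counterexamples of dimension `710`
   (five simple modules) and `1421` (ten simple modules, self-opposite), with `rad ^ 7 = 0`.
-/

open Vale.Agent.P176 Vale.Agent.P176.H807

universe u

theorem Vale.Agent.Results.P176.AllCharacteristics.result :
    (∀ (K : Type u) [Field K], (∀ F : Subfield K, Finite F → ¬ Algebra.IsAlgebraic F K) →
      ∃ (A : Type u) (_ : Ring A) (_ : Algebra K A), Module.Finite K A ∧
        Nonempty (A ≃ₐ[K] Aᵐᵒᵖ) ∧ findim A = ⊤ ∧ findim Aᵐᵒᵖ = ⊤) ∧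
    (∀ (K : Type u) [Field K] [CharZero K] (F : Subfield K), Finite F →
      ¬ Algebra.IsAlgebraic F K) ∧
    (∀ p : ℕ, p.Prime → ∃ (K : Type u) (_ : Field K), CharP K p ∧
      ∀ F : Subfield K, Finite F → ¬ Algebra.IsAlgebraic F K) ∧
    (∀ (K : Type u) [Field K] [CharZero K],
      (∃ (A : Type u) (_ : Ring A) (_ : Algebra K A), Module.Finite K A ∧
        Module.finrank K A = 710 ∧ IsConnectedAlg A ∧ IsBasicOf K A 5 7 ∧ findim A = ⊤) ∧
      (∃ (A : Type u) (_ : Ring A) (_ : Algebra K A), Module.Finite K A ∧
        Module.finrank K A = 1421 ∧ IsConnectedAlg A ∧ IsBasicOf K A 10 7 ∧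
        Nonempty (A ≃ₐ[K] Aᵐᵒᵖ) ∧ findim A = ⊤ ∧ findim Aᵐᵒᵖ = ⊤)) := by
  refine ⟨fun K _ hK => ?_,
    fun K _ _ F hF => Vale.Agent.P195.H231.not_algebraic_of_charZero F hF,
    Vale.Agent.P195.H231.exists_field, fun K _ _ => ⟨exists_quant K, exists_quant_two_sided K⟩⟩
  obtain ⟨t, h0, ht⟩ := Vale.Agent.P195.H231.exists_order hK
  exact Vale.Agent.P176.H231.exists_all K h0 ht
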