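import Vale.Agent.P176.Statement
import Vale.Agent.P176.H807.Defs
import Vale.Agent.P176.H807.Quant

/-!
# P176: explicit and two-sided counterexamples to the finitistic dimension conjecture

Over every field `K` of characteristic zero:

* there is a connected basic `K`-algebra of dimension `710` with five simple modules and with
  `rad ^ 7 = 0` whose little finitistic dimension is infinite;
* there is a connected basic `K`-algebra of dimension `1421` with ten simple modules and with
  `rad ^ 7 = 0`, isomorphic to its opposite, whose left and right little finitistic dimensions are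
  both infinite.
-/

open Vale.Agent.P176 Vale.Agent.P176.H807

universe u

theorem Vale.Agent.Results.P176.ExplicitConnected.result (K : Type u) [Field K] [CharZero K] :
    (∃ (A : Type u) (_ : Ring A) (_ : Algebra K A), Module.Finite K A ∧
      Module.finrank K A = 710 ∧ IsConnectedAlg A ∧ IsBasicOf K A 5 7 ∧ findim A = ⊤) ∧
    (∃ (A : Type u) (_ : Ring A) (_ : Algebra K A), Module.Finite K A ∧
      Module.finrank K A = 1421 ∧ IsConnectedAlg A ∧ IsBasicOf K A 10 7 ∧
      Nonempty (A ≃ₐ[K] Aᵐᵒᵖ) ∧ findim A = ⊤ ∧ findim Aᵐᵒᵖ = ⊤) :=
  ⟨exists_quant K, exists_quant_two_sided K⟩
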