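import Vale.Agent.P176.Statement
import Vale.Agent.P176.H807.TwoSided

/-!
# P176: two-sided, self-opposite counterexamples to the finitistic dimension conjecture

Over every field `K` of characteristic zero there is a finite-dimensional `K`-algebra `A` which is
isomorphic to its opposite and such that the little finitistic dimensions of `A` (left modules) and
of `Aᵐᵒᵖ` (right modules) are both infinite.
-/

open Vale.Agent.P176

universe u

theorem Vale.Agent.Results.P176.SelfOpposite.result (K : Type u) [Field K] [CharZero K] :
    ∃ (A : Type u) (_ : Ring A) (_ : Algebra K A), Module.Finite K A ∧ findim A = ⊤ ∧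
      findim Aᵐᵒᵖ = ⊤ ∧ Nonempty (A ≃ₐ[K] Aᵐᵒᵖ) :=
  Vale.Agent.P176.H807.exists_two_sided K
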